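import Vale.Agent.P161.InnovDef

/-!
# P161 : skeleton (statements of the modules, proofs replaced by sorry)
Each module goes into its own file, in namespace `P161`, with exactly these names and statements.
-/

namespace P161.Skel

open MeasureTheory ProbabilityTheory Filter Topology
open scoped ENNReal

/-! ## Module Tree (file Tree.lean) -/

section Tree

variable {V : Type*} {G : SimpleGraph V}

theorem growth [G.LocallyFinite] {d : ℕ} (hd : 2 ≤ d) (hG : G.IsTree)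
    (hreg : G.IsRegularOfDegree d) {b : ℝ} (hb0 : 0 ≤ b) (hb : ((d : ℝ) - 1) * b < 1) (w : V)
    (D : Finset V) : ∑ v ∈ D, b ^ G.dist w v ≤ (1 + b) / (1 - ((d : ℝ) - 1) * b) := by
  sorry

theorem kernel [G.LocallyFinite] {d : ℕ} (hd : 2 ≤ d) (hG : G.IsTree)
    (hreg : G.IsRegularOfDegree d) {a θ : ℝ} (h0 : 0 ≤ θ) (ha : θ < a)
    (hb : ((d : ℝ) - 1) * (θ * a) < 1) (o w : V) (D : Finset V) :
    ∑ v ∈ D, a ^ G.dist o v * θ ^ G.dist v w ≤
      (1 + θ * a) / (1 - ((d : ℝ) - 1) * (θ * a)) / (1 - θ / a) * a ^ G.dist o w := by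
  sorry

/-! ## Module Leaf (file Leaf.lean) -/

theorem countable_of_connected [G.LocallyFinite] (hG : G.Connected) : Countable V := by
  sorry

theorem dist_leaf (hG : G.IsTree) {D : Finset V} (hD : (G.induce (D : Set V)).Connected)
    {u l v : V} (hu : u ∈ D) (hl : l ∉ D) (hadj : G.Adj u l) (hv : v ∈ D) :
    G.dist v l = G.dist v u + 1 := by
  sorry

theorem leaf_unique (hG : G.IsTree) {D : Finset V} (hD : (G.induce (D : Set V)).Connected)
    {u u' l : V} (hu : u ∈ D) (hu' : u' ∈ D) (hl : l ∉ D) (hadj : G.Adj u l)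
    (hadj' : G.Adj u' l) : u = u' := by
  sorry

theorem connected_insert [DecidableEq V] {D : Finset V}
    (hD : (G.induce (D : Set V)).Connected) {u l : V} (hu : u ∈ D) (hadj : G.Adj u l) :
    (G.induce ((insert l D : Finset V) : Set V)).Connected := by
  sorry

/-- a connected set can be grown inside a bigger connected set by adding an adjacent vertex -/
theorem exists_grow {D D' : Finset V} (hne : D.Nonempty) (hss : D ⊂ D')
    (hD' : (G.induce (D' : Set V)).Connected) :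
    ∃ u ∈ D, ∃ l ∈ D', l ∉ D ∧ G.Adj u l := by
  sorry

theorem leaf_induction [DecidableEq V] {P : Finset V → Prop} (h1 : ∀ v, P {v})
    (h2 : ∀ (D : Finset V) (u l : V), (G.induce (D : Set V)).Connected → u ∈ D → l ∉ D →
      G.Adj u l → P D → P (insert l D)) :
    ∀ D : Finset V, (G.induce (D : Set V)).Connected → P D := by
  sorry

theorem exists_superset (hG : G.Connected) (D : Finset V) :
    ∃ D' : Finset V, D ⊆ D' ∧ (G.induce (D' : Set V)).Connected := by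
  sorry

theorem exhaustion [Countable V] (hG : G.Connected) (o : V) :
    ∃ D : ℕ → Finset V, Monotone D ∧ (∀ n, (G.induce (D n : Set V)).Connected) ∧
      (∀ n, o ∈ D n) ∧ ∀ v, ∃ n, v ∈ D n := by
  sorry

end Tree

/-! ## Module Ising (file Ising.lean) -/

theorem mag_lip {V : Type*} {G : SimpleGraph V} (hG : G.IsTree) {θ : ℝ} (h0 : 0 ≤ θ)
    (h1 : θ < 1) {μ : Measure (V → Bool)} [IsProbabilityMeasure μ] (hμ : IsFreeIsing G θ μ)
    {D : Finset V} (hD : (G.induce (D : Set V)).Connected) {v : V} (hv : v ∈ D) (x y : V → ℝ) :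
    |mag μ D v x - mag μ D v y| ≤ ∑ u ∈ D, θ ^ G.dist v u * |x u - y u| := by
  sorry

/-! ## Module Uniq (file Uniq.lean) and module Exist (file Exist.lean) -/

theorem isProb {V : Type*} [Nonempty V] {G : SimpleGraph V} {θ : ℝ}
    {μ : Measure (V → Bool)} (hμ : IsFreeIsing G θ μ) : IsProbabilityMeasure μ := by
  sorry

theorem uniq {V : Type*} {G : SimpleGraph V} (hG : G.Connected) {θ : ℝ} {μ μ' : Measure (V → Bool)}
    (hμ : IsFreeIsing G θ μ) (hμ' : IsFreeIsing G θ μ') : μ = μ' := by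
  sorry

theorem invariant {V : Type*} {G : SimpleGraph V} (hG : G.Connected) {θ : ℝ}
    {μ : Measure (V → Bool)} (hμ : IsFreeIsing G θ μ) (g : G ≃g G) :
    μ.map (fun σ v => σ (g.symm v)) = μ := by
  sorry

theorem exists_freeIsing {V : Type*} {G : SimpleGraph V} (hG : G.IsTree) [Countable V] {θ : ℝ}
    (h0 : 0 ≤ θ) (h1 : θ ≤ 1) : ∃ μ : Measure (V → Bool), IsFreeIsing G θ μ := by
  sorry

/-! ## Module BM (file BM.lean) -/

theorem exists_bm : ∃ (ρ : Measure (ℕ → ℕ → ℝ)) (w : ℕ → ℕ → (ℕ → ℕ → ℝ) → ℝ),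
    IsDyadicBM ρ w := by
  sorry

/-! ## Module Bayes (file Bayes.lean) -/

section Bayes

variable {V E : Type*} [MeasurableSpace E] {μ : Measure (V → Bool)} [IsProbabilityMeasure μ]
  {ρ : Measure E} {w : ℕ → ℕ → E → ℝ}

theorem bayes (hw : IsDyadicBM ρ w) (D : Finset V) {v : V} (hv : v ∈ D) (j k : ℕ)
    (g : (D → Fin (k + 1) → ℝ) → ℝ) (hg : Measurable g) {C : ℝ} (hC : ∀ x, |g x| ≤ C) :
    ∫ ω : Om V E, g (fun (u : D) (l : Fin (k + 1)) => X w u.1 j l ω) *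
      (spin (ω.1 v) - M μ w D v j k ω) ∂(PP μ ρ) = 0 := by
  sorry

end Bayes

/-! ## Module Innov (file Innov.lean) -/

section Innov

variable {V E : Type*} [MeasurableSpace E]

theorem exists_innov [Countable V] {μ : Measure (V → Bool)} [IsProbabilityMeasure μ]
    {ρ : Measure E} {w : ℕ → ℕ → E → ℝ} (hw : IsDyadicBM ρ w) :
    ∃ S T, IsInnov μ ρ w S T := by
  sorry

/-! ## Module Law (file Law.lean) -/

theorem law_fin {μ : Measure (V → Bool)} [IsProbabilityMeasure μ]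
    {ρ : Measure E} {w : ℕ → ℕ → E → ℝ} (hw : IsDyadicBM ρ w)
    {S : Finset V → V → ℕ → ℕ → Om V E → ℝ} {T : V → ℕ → ℕ → Om V E → ℝ}
    (hS : IsInnov μ ρ w S T) (D : Finset V) (j n : ℕ) :
    (PP μ ρ).map (fun (ω : Om V E) (v : D) (k : Fin (n + 1)) => X w v.1 j k ω - S D v.1 j k ω) =
      (Measure.infinitePi fun _ : V => ρ).map
        (fun (N : V → E) (v : D) (k : Fin (n + 1)) => w j k (N v.1)) := by
  sorry

theorem law_inf [Countable V] {μ : Measure (V → Bool)} [IsProbabilityMeasure μ]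
    {ρ : Measure E} {w : ℕ → ℕ → E → ℝ} (hw : IsDyadicBM ρ w)
    {S : Finset V → V → ℕ → ℕ → Om V E → ℝ} {T : V → ℕ → ℕ → Om V E → ℝ}
    (hS : IsInnov μ ρ w S T) :
    (PP μ ρ).map (fun (ω : Om V E) v j k => X w v j k ω - T v j k ω) =
      (Measure.infinitePi fun _ : V => ρ).map (fun (N : V → E) v j k => w j k (N v)) := by
  sorry

end Innov

/-! ## Module ES (file ES.lean) : Efron-Stein -/

open Classical in
theorem efron_stein {V E : Type*} [MeasurableSpace E] (ρ : Measure E) [IsProbabilityMeasure ρ]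
    (D A : Finset V) (hA : A ⊆ D) (F : (V → E) → ℝ) (hF : Measurable F)
    (hF2 : MemLp F 2 (Measure.infinitePi fun _ : V => ρ))
    (hdep : ∀ N N', (∀ v ∈ D, N v = N' v) → F N = F N') (h : V → E → E → ℝ)
    (hh : ∀ v ∈ D \ A, MemLp (Function.uncurry (h v)) 2 (ρ.prod ρ))
    (hlip : ∀ v ∈ D \ A, ∀ N N', (∀ u, u ≠ v → N u = N' u) → |F N - F N'| ≤ h v (N v) (N' v)) :
    ∫ N, (F N - ∫ N', F (fun v => if v ∈ A then N v else N' v)
        ∂(Measure.infinitePi fun _ : V => ρ)) ^ 2 ∂(Measure.infinitePi fun _ : V => ρ) ≤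
      ∑ v ∈ D \ A, ∫ p : E × E, (h v p.1 p.2) ^ 2 ∂(ρ.prod ρ) := by
  sorry

/-! ## Module Euler (file Euler.lean) -/

theorem euler_lip {V : Type*} {D : Finset V} {m : V → (V → ℝ) → ℝ} {K : V → V → ℝ}
    (hm : ∀ v ∈ D, ∀ x y, |m v x - m v y| ≤ ∑ u ∈ D, K v u * |x u - y u|) {p : V → ℝ}
    (hp : ∀ u, 0 ≤ p u) {L : ℝ} (hL : 0 ≤ L)
    (hker : ∀ u ∈ D, ∑ v ∈ D, p v * K v u ≤ L * p u) {o : V} (ho : o ∈ D)
    (hop : ∀ u ∈ D, K o u ≤ p u) {ε t : ℝ} (hε : 0 ≤ ε) (b b' : ℕ → V → ℝ) (N : ℕ)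
    (hN : ε * N ≤ t) :
    |euler m ε b N o - euler m ε b' N o| ≤ |b N o - b' N o| +
      Real.exp (L * t) * ∑ u ∈ D, p u * (ε * ∑ l ∈ Finset.range N, |b l u - b' l u|) := by
  sorry

/-! ## Module Est (file Est.lean) -/

theorem main_est {V E : Type*} [Countable V] [MeasurableSpace E] {μ : Measure (V → Bool)}
    [IsProbabilityMeasure μ] {ρ : Measure E} {w : ℕ → ℕ → E → ℝ} (hw : IsDyadicBM ρ w)
    {S : Finset V → V → ℕ → ℕ → Om V E → ℝ} {T : V → ℕ → ℕ → Om V E → ℝ}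
    (hS : IsInnov μ ρ w S T) {D : ℕ → Finset V} (hmono : Monotone D) {o : V}
    (ho : ∀ n, o ∈ D n) (hexh : ∀ v, ∃ n, v ∈ D n) {K : V → V → ℝ} (hK : ∀ u v, 0 ≤ K u v)
    (hlip : ∀ n, ∀ v ∈ D n, ∀ x y,
      |mag μ (D n) v x - mag μ (D n) v y| ≤ ∑ u ∈ D n, K v u * |x u - y u|)
    {p : V → ℝ} (hp : ∀ u, 0 ≤ p u) {L : ℝ} (hL : 0 ≤ L)
    (hker : ∀ n, ∀ u ∈ D n, ∑ v ∈ D n, p v * K v u ≤ L * p u) (hop : ∀ u, K o u ≤ p u)
    (hsum : Summable fun u => p u ^ 2) (t : ℕ) :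
    ∃ Ψ : ℕ → (V → ℕ → ℕ → ℝ) → ℝ, (∀ n, Measurable (Ψ n)) ∧
      Tendsto (fun n => eLpNorm (fun ω => X w o 0 t ω -
        Ψ n (fun v j k => X w v j k ω - T v j k ω)) 2 (PP μ ρ)) atTop (𝓝 0) := by
  sorry

/-! ## Module Final (file Final.lean) -/

theorem final {V : Type*} [Countable V] [Nonempty V] {G : SimpleGraph V} {μ : Measure (V → Bool)}
    [IsProbabilityMeasure μ] (hinv : ∀ g : G ≃g G, μ.map (fun σ v => σ (g.symm v)) = μ)
    (hK : ∀ o : V, ∃ (D : ℕ → Finset V) (K : V → V → ℝ) (p : V → ℝ) (L : ℝ), Monotone D ∧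
      (∀ n, o ∈ D n) ∧ (∀ v, ∃ n, v ∈ D n) ∧ (∀ u v, 0 ≤ K u v) ∧
      (∀ n, ∀ v ∈ D n, ∀ x y,
        |mag μ (D n) v x - mag μ (D n) v y| ≤ ∑ u ∈ D n, K v u * |x u - y u|) ∧
      (∀ u, 0 ≤ p u) ∧ 0 ≤ L ∧ (∀ n, ∀ u ∈ D n, ∑ v ∈ D n, p v * K v u ≤ L * p u) ∧
      (∀ u, K o u ≤ p u) ∧ Summable fun u => p u ^ 2) :
    IsFactorOfIID G μ := by
  sorry

end P161.Skel
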